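import Vale.Agent.P204.Full.CurCalc.Families
import Vale.Agent.P204.Full.End.WgBounds
import Vale.Agent.P204.Full.Global.Vol

/-!
P204, CurCalc: the cut-off forms `bumpForm` as a family in their centre, the averaging majorant,
and the formula for a functional applied to `maj e f * F` (helper17).
-/

namespace Vale.Agent.P204.Full.CurCalc

open Set Filter Metric MeasureTheory
open scoped Manifold ContDiff Topology

noncomputable section

universe u

variable {M : Type u} [TopologicalSpace M] [ChartedSpace E4 M] [IsManifold (𝓡 4) ∞ M]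
variable {S : Setup M} {N : ℕ} {B : ℝ} {L : Form M →ₗ[ℝ] ℝ}

omit [IsManifold (𝓡 4) ∞ M] in
theorem bump_comm (S : Setup M) (e : ℝ) (x y : M) : S.bump e x y = S.bump e y x := by
  simp only [Setup.bump, norm_sub_rev]

/-- the cut-off is jointly smooth in two charts -/
theorem contDiffOn_bump₂ (S : Setup M) (e : ℝ) {c c' : OpenPartialHomeomorph M E4} (hc : IsChart c)
    (hc' : IsChart c') :
    ContDiffOn ℝ ∞ (fun p : E4 × E4 => S.bump e (c.symm p.1) (c'.symm p.2))
      (c.target ×ˢ c'.target) := by
  have he : ∀ {d : OpenPartialHomeomorph M E4}, IsChart d → ∀ {g : E4 × E4 → E4},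
      ContDiff ℝ ∞ g → MapsTo g (c.target ×ˢ c'.target) d.target →
      ContDiffOn ℝ ∞ (fun p => S.at_.emb (d.symm (g p))) (c.target ×ˢ c'.target) :=
    fun {d} hd {g} hg hm => (contDiffOn_piLp 2).2 fun k =>
      ((S.at_.emb_smooth k).contDiffOn hd).comp hg.contDiffOn hm
  have h1 := he hc contDiff_fst fun p hp => hp.1
  have h2 := he hc' contDiff_snd fun p hp => hp.2
  exact Real.smoothTransition.contDiff.comp_contDiffOn
    (contDiffOn_const.sub (((h1.sub h2).norm_sq ℝ).div_const _))

/-- the cut-off forms are a smooth family in every chart of the centre -/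
theorem smoothFam_bumpForm (S : Setup M) (e : ℝ) {c : OpenPartialHomeomorph M E4} (hc : IsChart c) :
    SmoothFam S (fun y => bumpForm S e (c.symm y)) c.target :=
  smoothFam_smulFn (g := fun y x => S.bump e (c.symm y) x) S.F
    (fun y _ x u v => bumpForm_apply S e (c.symm y) x u v) fun i =>
    (contDiffOn_bump₂ S e hc (S.at_.mem_maximal i)).mono
      (prod_mono Subset.rfl (ball_subset_target S i))

theorem contJets_bumpForm (S : Setup M) (e : ℝ) (N : ℕ) :
    ContJets S N (fun x => bumpForm S e x) univ :=
  contJets_univ fun p => ⟨chartAt E4 p, mem_chart_source E4 p,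
    smoothFam_bumpForm S e (isChart_chartAt p)⟩

/-- a functional on the cut-off forms is smooth in the centre -/
theorem isSmoothFn_apply_bumpForm (hL : ∀ w, |L w| ≤ B * S.cN N w.1) (e : ℝ) :
    IsSmoothFn fun x => L (bumpForm S e x) := by
  intro x0
  rw [extChartAt_target_eq]
  exact (contDiffOn_apply hL (chartAt E4 x0).open_target
    (smoothFam_bumpForm S e (isChart_chartAt x0))).congr fun y _ => by simp [extChartAt]

variable [T2Space M] [CompactSpace M] [MeasurableSpace M] [BorelSpace M]

/-- the averaging majorant of a continuous function is smooth -/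
theorem isSmoothFn_maj (S : Setup M) (e : ℝ) {f : M → ℝ} (hf : Continuous f) :
    IsSmoothFn (S.maj e f) := by
  obtain ⟨C, hC, hwg⟩ := S.exists_abs_wg_le
  set g : Form M → M → ℝ := fun w y => f y / e ^ 4 * (wg S.F.1 w.1 S.F.1 y / 2)
  have hgc : ∀ w : Form M, Continuous (g w) := fun w =>
    (hf.div_const _).mul ((S.continuous_wg w.2 S.F.2).div_const _)
  let Lf : Form M →ₗ[ℝ] ℝ :=
    { toFun := fun w => ∫ y, g w y ∂S.vol
      map_add' := fun w w' => by
        rw [← integral_add (S.integrable_of_continuous (hgc w)) (S.integrable_of_continuous (hgc w'))]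
        refine integral_congr_ae (ae_of_all _ fun y => ?_)
        simp only [g, Submodule.coe_add, wg_add_left]
        ring
      map_smul' := fun r w => by
        rw [RingHom.id_apply, smul_eq_mul, ← integral_const_mul]
        refine integral_congr_ae (ae_of_all _ fun y => ?_)
        simp only [g, Submodule.coe_smul, wg_smul_left]
        ring }
  have hcf : Continuous fun y => |f y / e ^ 4| * (C * S.nrm S.F.1 y / 2) :=
    (hf.div_const _).abs.mul ((continuous_const.mul (S.continuous_nrm S.F.2)).div_const _)
  have hb : ∀ w : Form M, |Lf w| ≤ (∫ y, |f y / e ^ 4| * (C * S.nrm S.F.1 y / 2) ∂S.vol) *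
      S.cN 0 w.1 := fun w => by
    show |∫ y, g w y ∂S.vol| ≤ _
    rw [← integral_mul_const, ← Real.norm_eq_abs]
    refine norm_integral_le_of_norm_le ((S.integrable_of_continuous hcf).mul_const _)
      (ae_of_all _ fun y => ?_)
    rw [Real.norm_eq_abs, abs_mul, abs_div (wg S.F.1 w.1 S.F.1 y), abs_two, mul_assoc]
    refine mul_le_mul_of_nonneg_left ?_ (abs_nonneg _)
    have h1 := hwg w.1 S.F.1 w.2.isAltField S.F.2.isAltField y
    have h2 := mul_le_mul_of_nonneg_left (S.nrm_le_cN 0 w.2 y) (mul_nonneg hC (S.nrm_nonneg S.F.1 y))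
    nlinarith
  have he : S.maj e f = fun x => Lf (bumpForm S e x) := by
    funext x
    show (∫ y, S.bump e x y * f y ∂S.vol) / e ^ 4 = ∫ y, g (bumpForm S e x) y ∂S.vol
    rw [← integral_div]
    refine integral_congr_ae (ae_of_all _ fun y => ?_)
    simp only [g, bumpForm, fmul_coe, wg_smulFn_left, S.wg_F_F]
    ring
  rw [he]
  exact isSmoothFn_apply_bumpForm hb e

/-- `maj e f * F` as a form -/
def majForm (S : Setup M) (e : ℝ) {f : M → ℝ} (hf : Continuous f) : Form M :=
  fmul (S.maj e f) (isSmoothFn_maj S e hf) S.F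

theorem majForm_apply (S : Setup M) (e : ℝ) {f : M → ℝ} (hf : Continuous f) (x : M) (u v : E4) :
    (majForm S e hf).1 x u v = S.maj e f x * S.F.1 x u v := rfl

/-- a functional on `maj e f * F` is the average of its values on the cut-off forms -/
theorem apply_maj (hL : ∀ w, |L w| ≤ B * S.cN N w.1) (e : ℝ) {f : M → ℝ} (hf : Continuous f)
    (W : Form M) (hW : ∀ x u v, W.1 x u v = S.maj e f x * S.F.1 x u v) :
    L W = (∫ y, f y * L (bumpForm S e y) ∂S.vol) / e ^ 4 := by
  rw [apply_integral_pointwise hL (f := fun y => f y / e ^ 4)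
    (S.integrable_of_continuous (hf.div_const _)) isCompact_univ (fun y h => absurd (mem_univ y) h)
    (contJets_bumpForm S e N) W fun x u v => ?_, ← integral_div]
  · exact integral_congr_ae (ae_of_all _ fun y => by ring)
  · rw [hW, Setup.maj, ← integral_div, ← integral_mul_const]
    refine integral_congr_ae (ae_of_all _ fun y => ?_)
    simp only [bumpForm_apply, bump_comm S e y x]
    ring

theorem apply_majForm (hL : ∀ w, |L w| ≤ B * S.cN N w.1) (e : ℝ) {f : M → ℝ} (hf : Continuous f) :
    L (majForm S e hf) = (∫ y, f y * L (bumpForm S e y) ∂S.vol) / e ^ 4 :=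
  apply_maj hL e hf _ (majForm_apply S e hf)

end

end Vale.Agent.P204.Full.CurCalc
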