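import Vale.Agent.P204.Full.Flat

/-!
P204, CurCalc: a jointly smooth function of a parameter and a point, read as a curve in the
Banach space of continuous functions on a compact set, is smooth in the parameter (helper17).
-/

namespace Vale.Agent.P204.Full.CurCalc

open Set Filter Metric
open scoped ContDiff Topology

noncomputable section

variable {P : Type} [NormedAddCommGroup P] [NormedSpace ℝ P]
variable {E : Type} [NormedAddCommGroup E] [NormedSpace ℝ E]
variable {K : Set E4} [CompactSpace K]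

/-- the function `z ↦ ψ y z` on `K`, zero if it is not continuous there -/
def slice {α : Type*} (K : Set E4) (ψ : α → E4 → E) (y : α) : C(K, E) :=
  open Classical in
  if h : Continuous fun z : K => ψ y z then ⟨fun z : K => ψ y z, h⟩ else 0

omit [NormedSpace ℝ E] [CompactSpace K] in
theorem slice_apply {α : Type*} {ψ : α → E4 → E} {y : α} (h : ContinuousOn (ψ y) K) (z : K) :
    slice K ψ y z = ψ y z := by
  have hc : Continuous fun z : K => ψ y z := h.domRestrict
  simp [slice, dif_pos hc]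

omit [NormedSpace ℝ E] [CompactSpace K] in
theorem continuousOn_left {α : Type*} [TopologicalSpace α] {ψ : α → E4 → E} {U : Set α}
    {V : Set E4} (hψ : ContinuousOn (fun p : α × E4 => ψ p.1 p.2) (U ×ˢ V)) {y : α} (hy : y ∈ U) :
    ContinuousOn (ψ y) V :=
  hψ.comp (continuousOn_const.prodMk continuousOn_id) fun z hz => ⟨hy, hz⟩

omit [NormedSpace ℝ E] [CompactSpace K] in
theorem continuousOn_slice {α : Type*} [TopologicalSpace α] {ψ : α → E4 → E} {U : Set α}
    {V : Set E4} (hKV : K ⊆ V) (hψ : ContinuousOn (fun p : α × E4 => ψ p.1 p.2) (U ×ˢ V)) :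
    ContinuousOn (slice K ψ) U := by
  rw [continuousOn_iff_continuous_domRestrict]
  refine ContinuousMap.continuous_of_continuous_uncurry _ ?_
  have h : Continuous fun p : U × K => ψ p.1.1 p.2.1 :=
    hψ.comp_continuous ((continuous_subtype_val.comp continuous_fst).prodMk
      (continuous_subtype_val.comp continuous_snd)) fun p => ⟨p.1.2, hKV p.2.2⟩
  exact h.congr fun p => (slice_apply ((continuousOn_left hψ p.1.2).mono hKV) p.2).symm

/-- an operator valued continuous function as an operator into continuous functions -/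
def swapL : C(K, P →L[ℝ] E) →L[ℝ] P →L[ℝ] C(K, E) :=
  LinearMap.mkContinuous₂
    (LinearMap.mk₂ ℝ (fun (g : C(K, P →L[ℝ] E)) (v : P) => (⟨fun z => g z v, g.continuous.clm_apply continuous_const⟩ : C(K, E)))
      (fun g g' v => by ext z; simp) (fun c g v => by ext z; simp) (fun g v v' => by ext z; simp)
      (fun c g v => by ext z; simp))
    1 fun g v => by
      refine (ContinuousMap.norm_le _ (by positivity)).2 fun z => ?_
      simpa using ((g z).le_opNorm v).trans
        (mul_le_mul_of_nonneg_right (g.norm_coe_le_norm z) (norm_nonneg v))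

theorem swapL_apply (g : C(K, P →L[ℝ] E)) (v : P) (z : K) : swapL g v z = g z v := rfl

/-- the first derivative in the parameter -/
def dpar (ψ : P → E4 → E) (y : P) (z : E4) : P →L[ℝ] E :=
  (fderiv ℝ (fun p : P × E4 => ψ p.1 p.2) (y, z)).comp (ContinuousLinearMap.inl ℝ P E4)

omit [CompactSpace K] in
theorem contDiffOn_dpar {m : WithTop ℕ∞} {n : WithTop ℕ∞} (hmn : m + 1 ≤ n) {ψ : P → E4 → E}
    {U : Set P} {V : Set E4} (hU : IsOpen U) (hV : IsOpen V)
    (hψ : ContDiffOn ℝ n (fun p : P × E4 => ψ p.1 p.2) (U ×ˢ V)) :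
    ContDiffOn ℝ m (fun p : P × E4 => dpar ψ p.1 p.2) (U ×ˢ V) :=
  (hψ.fderiv_of_isOpen (hU.prod hV) hmn).clm_comp contDiffOn_const

omit [CompactSpace K] in
theorem hasFDerivAt_dpar {ψ : P → E4 → E} {U : Set P} {V : Set E4} (hU : IsOpen U) (hV : IsOpen V)
    (hψ : ContDiffOn ℝ 1 (fun p : P × E4 => ψ p.1 p.2) (U ×ˢ V)) {y : P} (hy : y ∈ U)
    {z : E4} (hz : z ∈ V) : HasFDerivAt (fun y => ψ y z) (dpar ψ y z) y := by
  have h : HasFDerivAt (fun p : P × E4 => ψ p.1 p.2) (fderiv ℝ (fun p : P × E4 => ψ p.1 p.2) (y, z))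
      (y, z) :=
    ((hψ.differentiableOn one_ne_zero).differentiableAt ((hU.prod hV).mem_nhds ⟨hy, hz⟩)).hasFDerivAt
  exact HasFDerivAt.comp (g := fun p : P × E4 => ψ p.1 p.2) (f := fun e => (e, z)) y h
    (hasFDerivAt_prodMk_left (𝕜 := ℝ) y z)

theorem hasFDerivAt_slice {ψ : P → E4 → E} {U : Set P} {V : Set E4} (hU : IsOpen U) (hV : IsOpen V)
    (hKV : K ⊆ V) (hψ : ContDiffOn ℝ 1 (fun p : P × E4 => ψ p.1 p.2) (U ×ˢ V)) {y : P} (hy : y ∈ U) :
    HasFDerivAt (slice K ψ) (swapL (slice K (dpar ψ) y)) y := by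
  have hd : ContinuousOn (fun p : P × E4 => dpar ψ p.1 p.2) (U ×ˢ V) :=
    (contDiffOn_dpar (m := 0) (by norm_num) hU hV hψ).continuousOn
  have hcd : ∀ y' ∈ U, ∀ z : K, slice K (dpar ψ) y' z = dpar ψ y' z := fun y' h z =>
    slice_apply ((continuousOn_left hd h).mono hKV) z
  have hc : ∀ y' ∈ U, ∀ z : K, slice K ψ y' z = ψ y' z := fun y' h z =>
    slice_apply ((continuousOn_left hψ.continuousOn h).mono hKV) z
  rw [hasFDerivAt_iff_isLittleO_nhds_zero, Asymptotics.isLittleO_iff]
  intro ε hε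
  have hsd := (continuousOn_slice hKV hd).continuousAt (hU.mem_nhds hy)
  obtain ⟨δ, hδ, hball⟩ := Metric.mem_nhds_iff.1
    (inter_mem (hU.mem_nhds hy) (hsd.preimage_mem_nhds (ball_mem_nhds _ hε)))
  filter_upwards [ball_mem_nhds (0 : P) hδ] with h hh
  refine (ContinuousMap.norm_le _ (by positivity)).2 fun z => ?_
  have hyh : y + h ∈ ball y δ := by simpa [mem_ball, dist_eq_norm] using hh
  simp only [ContinuousMap.sub_apply, hc _ (hball hyh).1, hc _ hy, swapL_apply, hcd _ hy]
  have hmv := (convex_ball y δ).norm_image_sub_le_of_norm_hasFDerivWithin_le'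
    (f := fun y => ψ y z) (φ := dpar ψ y z) (C := ε)
    (fun x hx => (hasFDerivAt_dpar hU hV hψ (hball hx).1 (hKV z.2)).hasFDerivWithinAt)
    (fun x hx => by
      rw [← hcd x (hball hx).1 z, ← hcd y hy z, ← ContinuousMap.sub_apply]
      refine ((slice K (dpar ψ) x - slice K (dpar ψ) y).norm_coe_le_norm z).trans ?_
      rw [← dist_eq_norm]
      exact le_of_lt (hball hx).2)
    (mem_ball_self hδ) hyh
  simpa using hmv

/-- joint smoothness gives smoothness of the slices -/
theorem contDiffOn_slice_nat : ∀ (n : ℕ) {E : Type} [NormedAddCommGroup E] [NormedSpace ℝ E]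
    {ψ : P → E4 → E} {U : Set P} {V : Set E4}, IsOpen U → IsOpen V → K ⊆ V →
    ContDiffOn ℝ n (fun p : P × E4 => ψ p.1 p.2) (U ×ˢ V) → ContDiffOn ℝ n (slice K ψ) U
  | 0, _, _, _, _, _, _, _, _, hKV, hψ =>
    contDiffOn_zero.2 (continuousOn_slice hKV hψ.continuousOn)
  | n + 1, E, _, _, ψ, U, V, hU, hV, hKV, hψ => by
    have h1 : ContDiffOn ℝ 1 (fun p : P × E4 => ψ p.1 p.2) (U ×ˢ V) :=
      hψ.of_le (by exact_mod_cast Nat.le_add_left 1 n)
    have hd : ∀ y ∈ U, HasFDerivAt (slice K ψ) (swapL (slice K (dpar ψ) y)) y := fun y hy =>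
      hasFDerivAt_slice hU hV hKV h1 hy
    rw [Nat.cast_add, Nat.cast_one, contDiffOn_succ_iff_fderiv_of_isOpen hU]
    refine ⟨fun y hy => (hd y hy).differentiableAt.differentiableWithinAt, fun h => ?_, ?_⟩
    · simp at h
    · have ih := contDiffOn_slice_nat n (E := P →L[ℝ] E) hU hV hKV
        (contDiffOn_dpar (m := n) (by simp) hU hV hψ)
      have h2 : ContDiffOn ℝ n (fun y => (swapL : C(K, P →L[ℝ] E) →L[ℝ] P →L[ℝ] C(K, E))
          (slice K (dpar ψ) y)) U := ContinuousLinearMap.contDiff _ |>.comp_contDiffOn ih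
      exact h2.congr fun y hy => (hd y hy).fderiv

theorem contDiffOn_slice {ψ : P → E4 → E} {U : Set P} {V : Set E4} (hU : IsOpen U) (hV : IsOpen V)
    (hKV : K ⊆ V) (hψ : ContDiffOn ℝ ∞ (fun p : P × E4 => ψ p.1 p.2) (U ×ˢ V)) :
    ContDiffOn ℝ ∞ (slice K ψ) U :=
  contDiffOn_infty.2 fun n => contDiffOn_slice_nat n hU hV hKV (contDiffOn_infty.1 hψ n)

/-- jets in the point variable of a jointly smooth function are jointly smooth -/
theorem contDiffOn_jet {ψ : P → E4 → E} {U : Set P} {V : Set E4} (hU : IsOpen U) (hV : IsOpen V)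
    (hψ : ContDiffOn ℝ ∞ (fun p : P × E4 => ψ p.1 p.2) (U ×ˢ V)) (j : ℕ) :
    ContDiffOn ℝ ∞ (fun p : P × E4 => iteratedFDeriv ℝ j (ψ p.1) p.2) (U ×ˢ V) := by
  induction j with
  | zero =>
    exact ((continuousMultilinearCurryFin0 ℝ E4 E).symm.contDiff.comp_contDiffOn hψ).congr
      fun p _ => by simp [iteratedFDeriv_zero_eq_comp]
  | succ j ih =>
    set Φ : P × E4 → ContinuousMultilinearMap ℝ (fun _ : Fin j => E4) E :=
      fun p => iteratedFDeriv ℝ j (ψ p.1) p.2 with hΦ
    refine ((continuousMultilinearCurryLeftEquiv ℝ (fun _ : Fin (j + 1) => E4) E).symm.contDiff.comp_contDiffOn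
      ((ih.fderiv_of_isOpen (hU.prod hV) (m := ∞) (by simp)).clm_comp
        (contDiffOn_const (c := ContinuousLinearMap.inr ℝ P E4)))).congr fun p hp => ?_
    have h : HasFDerivAt Φ (fderiv ℝ Φ p) p :=
      ((ih.differentiableOn (by simp)).differentiableAt ((hU.prod hV).mem_nhds hp)).hasFDerivAt
    have h2 : HasFDerivAt (iteratedFDeriv ℝ j (ψ p.1))
        ((fderiv ℝ Φ p).comp (ContinuousLinearMap.inr ℝ P E4)) p.2 :=
      HasFDerivAt.comp (g := Φ) (f := fun z => (p.1, z)) p.2 h (hasFDerivAt_prodMk_right p.1 p.2)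
    simp only [iteratedFDeriv_succ_eq_comp_left, Function.comp_apply, h2.fderiv]

end

end Vale.Agent.P204.Full.CurCalc
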