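import Vale.Agent.P204.Full.Spec
import Vale.Agent.P204.Full.Global.Read
import Vale.Agent.P204.Full.CurCalc.Param

/-!
P204, CurCalc: functionals bounded by a `cN` seminorm factor through the Banach space of chart
jets on the closed ball of radius three (helper17).
-/

namespace Vale.Agent.P204.Full.CurCalc

open Set Filter Metric
open scoped Manifold ContDiff Topology

noncomputable section

set_option synthInstance.maxHeartbeats 200000

universe u

variable {M : Type u} [TopologicalSpace M] [ChartedSpace E4 M] [IsManifold (𝓡 4) ∞ M]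

/-- the compact domain of the jets -/
abbrev B3 : Set E4 := closedBall (0 : E4) 3

/-- values of the `j`-th jet -/
abbrev JetVal (j : ℕ) : Type := ContinuousMultilinearMap ℝ (fun _ : Fin j => E4) C2

/-- continuous jets on the ball, as an opaque normed space -/
def JetC (j : ℕ) : Type := C(B3, JetVal j)

instance (j : ℕ) : NormedAddCommGroup (JetC j) := inferInstanceAs (NormedAddCommGroup C(B3, JetVal j))

instance (j : ℕ) : NormedSpace ℝ (JetC j) := inferInstanceAs (NormedSpace ℝ C(B3, JetVal j))

instance (j : ℕ) : CompleteSpace (JetC j) := inferInstanceAs (CompleteSpace C(B3, JetVal j))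

/-- evaluation at a point of the ball -/
def JetC.evalL (j : ℕ) (z : B3) : JetC j →L[ℝ] JetVal j :=
  (ContinuousMap.evalCLM ℝ z : C(B3, JetVal j) →L[ℝ] JetVal j)

/-- the space of chart jets up to order `N` -/
abbrev JetSp (S : Setup M) (N : ℕ) : Type :=
  ∀ _ : Fin S.at_.n, ∀ j : Fin (N + 1), JetC j

/-- `j`-th chart jet of a form -/
def jetFun (S : Setup M) (i : Fin S.at_.n) (j : ℕ) (w : Form M) (z : E4) : JetVal j :=
  iteratedFDeriv ℝ j (S.read i w.1) z

theorem ball_subset_target (S : Setup M) (i : Fin S.at_.n) :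
    ball (0 : E4) 4 ⊆ (S.at_.chart i).target := ball_subset_closedBall.trans (S.at_.ball_subset i)

theorem B3_subset : B3 ⊆ ball (0 : E4) 4 := closedBall_subset_ball (by norm_num)

theorem smooth_read (S : Setup M) (i : Fin S.at_.n) (w : Form M) :
    ContDiffOn ℝ ∞ (S.read i w.1) (ball 0 4) :=
  (w.2.contDiffOn_readC (S.at_.mem_maximal i)).mono (ball_subset_target S i)

theorem continuousOn_jetFun (S : Setup M) (i : Fin S.at_.n) (j : ℕ) (w : Form M) :
    ContinuousOn (jetFun S i j w) (ball 0 4) :=
  ((smooth_read S i w).continuousOn_iteratedFDerivWithin (by exact_mod_cast le_top)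
    isOpen_ball.uniqueDiffOn).congr fun _ hz => (iteratedFDerivWithin_of_isOpen j isOpen_ball hz).symm

/-- one component of the jet -/
def comp (S : Setup M) (i : Fin S.at_.n) (j : ℕ) (w : Form M) : C(B3, JetVal j) :=
  slice B3 (jetFun S i j) w

theorem comp_apply (S : Setup M) (i : Fin S.at_.n) (j : ℕ) (w : Form M) (z : B3) :
    comp S i j w z = iteratedFDeriv ℝ j (S.read i w.1) z :=
  slice_apply ((continuousOn_jetFun S i j w).mono B3_subset) z

omit [IsManifold (𝓡 4) ∞ M] in
theorem read_add (S : Setup M) (i : Fin S.at_.n) (w w' : Form M) :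
    S.read i (w + w').1 = S.read i w.1 + S.read i w'.1 := rfl

omit [IsManifold (𝓡 4) ∞ M] in
theorem read_smul (S : Setup M) (i : Fin S.at_.n) (c : ℝ) (w : Form M) :
    S.read i (c • w).1 = c • S.read i w.1 := rfl

/-- the jets as a linear map -/
def jetL (S : Setup M) (N : ℕ) : Form M →ₗ[ℝ] JetSp S N where
  toFun w i j := (comp S i j w : JetC j)
  map_add' w w' := by
    funext i j
    show comp S i j (w + w') = comp S i j w + comp S i j w'
    ext1 z
    have hz := isOpen_ball.mem_nhds (B3_subset z.2)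
    simp only [Pi.add_apply, ContinuousMap.add_apply, comp_apply, read_add]
    exact iteratedFDeriv_add_apply
      (((smooth_read S i w).contDiffAt hz).of_le (by exact_mod_cast le_top))
      (((smooth_read S i w').contDiffAt hz).of_le (by exact_mod_cast le_top))
  map_smul' c w := by
    funext i j
    show comp S i j (c • w) = c • comp S i j w
    ext1 z
    have hz := isOpen_ball.mem_nhds (B3_subset z.2)
    simp only [Pi.smul_apply, ContinuousMap.smul_apply, comp_apply, read_smul, RingHom.id_apply]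
    exact iteratedFDeriv_const_smul_apply
      (((smooth_read S i w).contDiffAt hz).of_le (by exact_mod_cast le_top))

theorem cN_le_norm_jetL (S : Setup M) (N : ℕ) (w : Form M) :
    S.cN N w.1 ≤ (S.at_.n * (N + 1) : ℕ) * ‖jetL S N w‖ := by
  have : Nonempty (closedBall (0 : E4) 3) := ⟨⟨0, by simp⟩⟩
  have h : ∀ i : Fin S.at_.n, ∀ j ∈ Finset.range (N + 1),
      (⨆ y : closedBall (0 : E4) 3, ‖iteratedFDeriv ℝ j (S.read i w.1) y‖) ≤ ‖jetL S N w‖ := by
    intro i j hj
    refine ciSup_le fun z => ?_
    rw [← comp_apply S i j w z]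
    exact ((comp S i j w).norm_coe_le_norm z).trans
      ((norm_le_pi_norm (jetL S N w i) ⟨j, Finset.mem_range.1 hj⟩).trans
        (norm_le_pi_norm (jetL S N w) i))
  refine (Finset.sum_le_sum fun i _ => Finset.sum_le_sum (h i)).trans (le_of_eq ?_)
  simp [mul_assoc]

omit [IsManifold (𝓡 4) ∞ M] in
theorem cN_nonneg_aux (S : Setup M) (N : ℕ) (w : M → E4 → E4 → ℝ) : 0 ≤ S.cN N w :=
  Finset.sum_nonneg fun _ _ => Finset.sum_nonneg fun _ _ => Real.iSup_nonneg fun _ => norm_nonneg _

/-- a functional bounded through a linear map to a normed space factors through it -/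
theorem exists_factor {V X : Type*} [AddCommGroup V] [Module ℝ V] [NormedAddCommGroup X]
    [NormedSpace ℝ X] (J : V →ₗ[ℝ] X) (L : V →ₗ[ℝ] ℝ) (A : ℝ) (hb : ∀ w, |L w| ≤ A * ‖J w‖) :
    ∃ Λ : X →L[ℝ] ℝ, ∀ w, Λ (J w) = L w := by
  have hker : LinearMap.ker J ≤ LinearMap.ker L := fun w hw => by
    have := hb w
    rw [LinearMap.mem_ker.1 hw, norm_zero, mul_zero] at this
    exact abs_nonpos_iff.1 this
  set f : LinearMap.range J →ₗ[ℝ] ℝ :=
    ((LinearMap.ker J).liftQ L hker).comp J.quotKerEquivRange.symm.toLinearMap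
  have hf : ∀ w, f ⟨J w, w, rfl⟩ = L w := fun w => by
    show (LinearMap.ker J).liftQ L hker (J.quotKerEquivRange.symm _) = L w
    rw [LinearMap.quotKerEquivRange_symm_apply_image J w ⟨w, rfl⟩]
    rfl
  obtain ⟨Λ, hΛ, -⟩ := exists_extension_norm_eq (LinearMap.range J)
    (f.mkContinuous A fun x => by
      obtain ⟨x, w, rfl⟩ := x
      rw [hf]
      exact hb w)
  exact ⟨Λ, fun w => (hΛ ⟨_, w, rfl⟩).trans (hf w)⟩

/-- a functional bounded by `cN` extends to the space of jets -/
theorem exists_ext (S : Setup M) (N : ℕ) (C : ℝ) (L : Form M →ₗ[ℝ] ℝ)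
    (hL : ∀ w, |L w| ≤ C * S.cN N w.1) :
    ∃ Λ : JetSp S N →L[ℝ] ℝ, ∀ w, Λ (jetL S N w) = L w := by
  refine exists_factor (X := JetSp S N) (jetL S N) L (max C 0 * (S.at_.n * (N + 1) : ℕ)) fun w => ?_
  refine (hL w).trans ((mul_le_mul_of_nonneg_right (le_max_left C 0) (cN_nonneg_aux S N w.1)).trans ?_)
  rw [mul_assoc]
  exact mul_le_mul_of_nonneg_left (cN_le_norm_jetL S N w) (le_max_right _ _)

end

end Vale.Agent.P204.Full.CurCalc
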