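import Vale.Agent.P204.Full.CurCalc.Main

/-!
P204, CurCalc: families of forms with parameters in the manifold, and families obtained by
multiplying a fixed form by functions (helper17).
-/

namespace Vale.Agent.P204.Full.CurCalc

open Set Filter Metric MeasureTheory
open scoped Manifold ContDiff Topology

noncomputable section

universe u

variable {M : Type u} [TopologicalSpace M] [ChartedSpace E4 M] [IsManifold (𝓡 4) ∞ M]
variable {S : Setup M} {N : ℕ}

omit [IsManifold (𝓡 4) ∞ M] in
/-- continuity of jets is local in the parameter -/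
theorem contJets_of_local {α : Type*} [TopologicalSpace α] {Φ : α → Form M} {U : Set α}
    (h : ∀ p ∈ U, ∃ W : Set α, IsOpen W ∧ p ∈ W ∧ ContJets S N Φ W) : ContJets S N Φ U := by
  intro i j hj p hp
  obtain ⟨W, hW, hpW, hJ⟩ := h p.1 hp.1
  exact ((hJ i j hj).continuousAt ((hW.prod isOpen_ball).mem_nhds ⟨hpW, hp.2⟩)).continuousWithinAt

omit [IsManifold (𝓡 4) ∞ M] in
/-- a family on `M` that is smooth in a chart of the parameter has continuous jets on its source -/
theorem contJets_source {Φ : M → Form M} (c : OpenPartialHomeomorph M E4)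
    (h : SmoothFam S (fun y => Φ (c.symm y)) c.target) : ContJets S N Φ c.source := by
  intro i j hj
  have hc : ContinuousOn (fun p : M × E4 => (c p.1, p.2)) (c.source ×ˢ ball (0 : E4) 4) :=
    (c.continuousOn.comp continuousOn_fst fun p hp => hp.1).prodMk continuousOn_snd
  exact ((h.contJets c.open_target i j hj).comp hc fun p hp => ⟨c.map_source hp.1, hp.2⟩).congr
    fun p hp => by simp [c.left_inv hp.1]

omit [IsManifold (𝓡 4) ∞ M] in
/-- a family on `M` that is smooth in the charts of the parameter has continuous jets -/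
theorem contJets_univ {Φ : M → Form M}
    (h : ∀ p : M, ∃ c : OpenPartialHomeomorph M E4,
      p ∈ c.source ∧ SmoothFam S (fun y => Φ (c.symm y)) c.target) : ContJets S N Φ univ :=
  contJets_of_local fun p _ => by
    obtain ⟨c, hp, hc⟩ := h p
    exact ⟨c.source, c.open_source, hp, contJets_source c hc⟩

omit [IsManifold (𝓡 4) ∞ M] in
theorem read_smulFn (S : Setup M) (i : Fin S.at_.n) {g : M → ℝ} {w η : M → E4 → E4 → ℝ}
    (h : ∀ x u v, w x u v = g x * η x u v) (z : E4) :
    S.read i w z = g ((S.at_.chart i).symm z) • S.read i η z :=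
  funext fun _ => funext fun _ => h _ _ _

/-- multiples of a fixed form by a jointly smooth family of functions -/
theorem smoothFam_smulFn {P : Type} [NormedAddCommGroup P] [NormedSpace ℝ P] {Φ : P → Form M}
    {U : Set P} {g : P → M → ℝ} (η : Form M)
    (hΦ : ∀ y ∈ U, ∀ x u v, (Φ y).1 x u v = g y x * η.1 x u v)
    (hg : ∀ i, ContDiffOn ℝ ∞ (fun p : P × E4 => g p.1 ((S.at_.chart i).symm p.2)) (U ×ˢ ball 0 4)) :
    SmoothFam S Φ U := fun i =>
  ((hg i).smul ((smooth_read S i η).comp contDiff_snd.contDiffOn fun p hp => hp.2)).congr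
    fun p hp => read_smulFn S i (hΦ p.1 hp.1) p.2

/-- the functional commutes with averaging, pointwise form -/
theorem apply_integral_pointwise {C : ℝ} {L : Form M →ₗ[ℝ] ℝ} (hL : ∀ w, |L w| ≤ C * S.cN N w.1)
    {α : Type*} [TopologicalSpace α] [T2Space α] [MeasurableSpace α] [OpensMeasurableSpace α]
    {μ : Measure α} {f : α → ℝ} {K : Set α} {β : α → Form M} (hf : Integrable f μ)
    (hK : IsCompact K) (hsupp : ∀ y ∉ K, f y = 0) (h : ContJets S N β K) (W : Form M)
    (hW : ∀ x u v, W.1 x u v = ∫ y, f y * (β y).1 x u v ∂μ) : L W = ∫ y, f y * L (β y) ∂μ :=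
  apply_integral hL hf hK hsupp h W fun i _ hz => read_integral_of_pointwise hf hK hsupp h W hW i hz

end

end Vale.Agent.P204.Full.CurCalc
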