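import Vale.Agent.P204.Full.CurCalc.Ext

/-!
P204, CurCalc: a functional bounded by a `cN` seminorm applied to a family of forms is continuous
resp. smooth in the parameter and commutes with integrals (helper17).
-/

namespace Vale.Agent.P204.Full.CurCalc

open Set Filter Metric MeasureTheory
open scoped Manifold ContDiff Topology

noncomputable section

set_option synthInstance.maxHeartbeats 200000

theorem one_le_infty : (1 : WithTop ℕ∞) ≤ ∞ := WithTop.coe_le_coe.mpr le_top

/-- the parameter derivative of a derivative in the point, by symmetry -/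
theorem fderiv_succ_comm {P F G : Type} [NormedAddCommGroup P] [NormedSpace ℝ P]
    [NormedAddCommGroup F] [NormedSpace ℝ F] [NormedAddCommGroup G] [NormedSpace ℝ G]
    {Φ : P × E4 → F} {Φ' : P × E4 → G} {s : Set (P × E4)} (hs : IsOpen s)
    (hΦ : ContDiffOn ℝ ∞ Φ s) (κ : (E4 →L[ℝ] F) →L[ℝ] G)
    (hsucc : ∀ p ∈ s, Φ' p = κ ((fderiv ℝ Φ p).comp (ContinuousLinearMap.inr ℝ P E4)))
    {y : P} {z : E4} (hp : (y, z) ∈ s) (v : P) :
    fderiv ℝ Φ' (y, z) (v, 0) = κ (fderiv ℝ (fun z' => fderiv ℝ Φ (y, z') (v, 0)) z) := by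
  have hmem := hs.mem_nhds hp
  have hD2 : HasFDerivAt (fderiv ℝ Φ) (fderiv ℝ (fderiv ℝ Φ) (y, z)) (y, z) :=
    (((hΦ.fderiv_of_isOpen hs (m := ∞) (by simp)).differentiableOn (by simp)).differentiableAt
      hmem).hasFDerivAt
  have hsym := (hΦ.contDiffAt hmem).isSymmSndFDerivAt
    (by simp; exact WithTop.coe_le_coe.mpr le_top)
  have hL := (κ.hasFDerivAt.comp (y, z) (hD2.clm_comp
    (hasFDerivAt_const (ContinuousLinearMap.inr ℝ P E4) (y, z)))).congr_of_eventuallyEq
    (f₁ := Φ') (Filter.mem_of_superset hmem fun p hp => hsucc p hp)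
  have hR := HasFDerivAt.comp (g := fun p => fderiv ℝ Φ p (v, 0)) (f := fun z' => (y, z')) z
    (HasFDerivAt.comp (g := fun T => ContinuousLinearMap.apply ℝ F (v, (0 : E4)) T) (f := fderiv ℝ Φ)
      (y, z) (ContinuousLinearMap.hasFDerivAt _) hD2) (hasFDerivAt_prodMk_right (𝕜 := ℝ) y z)
  rw [hL.fderiv]
  rw [show (fun z' => fderiv ℝ Φ (y, z') (v, 0)) = (fun p => fderiv ℝ Φ p (v, 0)) ∘ fun z' => (y, z')
    from rfl, hR.fderiv]
  simp only [ContinuousLinearMap.comp_apply]
  simp only [add_apply, ContinuousLinearMap.comp_apply, zero_apply, map_zero, zero_add]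
  congr 1
  ext1 e
  simp [hsym.eq (v, 0) (0, e)]

/-- componentwise derivative inside a functional on a product of products -/
theorem fderiv_pi_pi {ι : Type*} [Fintype ι] {κ : Type*} [Fintype κ] {P : Type*} [NormedAddCommGroup P]
    [NormedSpace ℝ P] {X : κ → Type*} [∀ j, NormedAddCommGroup (X j)] [∀ j, NormedSpace ℝ (X j)]
    (Λ : (ι → ∀ j, X j) →L[ℝ] ℝ) {F : P → ι → ∀ j, X j} {D : ∀ (_ : ι) j, P →L[ℝ] X j} {y v : P}
    (h : ∀ i j, HasFDerivAt (fun y => F y i j) (D i j) y) {w : ι → ∀ j, X j}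
    (hw : ∀ i j, D i j v = w i j) : fderiv ℝ (fun y => Λ (F y)) y v = Λ w := by
  have hd : HasFDerivAt F (ContinuousLinearMap.pi fun i => ContinuousLinearMap.pi fun j => D i j) y :=
    (hasFDerivAt_pi (φ := fun i y => F y i)).2 fun i =>
      (hasFDerivAt_pi (φ := fun j y => F y i j)).2 fun j => h i j
  rw [show (fun y => Λ (F y)) = Λ ∘ F from rfl, (Λ.hasFDerivAt.comp y hd).fderiv,
    ContinuousLinearMap.comp_apply]
  exact congrArg Λ (funext fun i => funext fun j => hw i j)

/-- integrals in a product of products are computed componentwise -/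
theorem integral_pi_pi {α : Type*} [MeasurableSpace α] {μ : Measure α} {ι : Type*} [Fintype ι]
    {κ : Type*} [Fintype κ] {X : κ → Type*} [∀ j, NormedAddCommGroup (X j)]
    [∀ j, NormedSpace ℝ (X j)] [∀ j, CompleteSpace (X j)] {Y : Type*} [NormedAddCommGroup Y]
    [NormedSpace ℝ Y] [CompleteSpace Y] {g : α → ι → ∀ j, X j} (hg : Integrable g μ) (i : ι) (j : κ)
    (e : X j →L[ℝ] Y) : e ((∫ y, g y ∂μ) i j) = ∫ y, e (g y i j) ∂μ :=
  ((e.comp ((ContinuousLinearMap.proj (R := ℝ) (φ := X) j).comp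
    (ContinuousLinearMap.proj (R := ℝ) (φ := fun _ : ι => ∀ j, X j) i))).integral_comp_comm hg).symm

/-- jets in the point variable of the parameter derivative are the parameter derivative of the jets -/
theorem fderiv_jet_comm {P : Type} [NormedAddCommGroup P] [NormedSpace ℝ P] {E : Type}
    [NormedAddCommGroup E] [NormedSpace ℝ E] {ψ : P → E4 → E} {U : Set P} {V : Set E4}
    (hU : IsOpen U) (hV : IsOpen V)
    (hψ : ContDiffOn ℝ ∞ (fun p : P × E4 => ψ p.1 p.2) (U ×ˢ V)) (v : P) (j : ℕ) :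
    ∀ {y : P}, y ∈ U → ∀ {z : E4}, z ∈ V →
      dpar (fun y z => iteratedFDeriv ℝ j (ψ y) z) y z v =
        iteratedFDeriv ℝ j (fun z => dpar ψ y z v) z := by
  induction j with
  | zero =>
    intro y hy z hz
    set e := (continuousMultilinearCurryFin0 ℝ E4 E).symm
    have h1 := hasFDerivAt_dpar hU hV (hψ.of_le one_le_infty) hy hz
    have h2 := hasFDerivAt_dpar (ψ := fun y z => iteratedFDeriv ℝ 0 (ψ y) z) hU hV ((contDiffOn_jet hU hV hψ 0).of_le one_le_infty) hy hz
    have h3 : HasFDerivAt (fun y => e (ψ y z))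
        ((e : E →L[ℝ] _).comp (dpar ψ y z)) y := e.toContinuousLinearEquiv.hasFDerivAt.comp y h1
    have he : (fun y => iteratedFDeriv ℝ 0 (ψ y) z) = fun y => e (ψ y z) := by
      funext y; simp [iteratedFDeriv_zero_eq_comp, e]
    rw [he] at h2
    rw [h2.unique h3]
    simp [iteratedFDeriv_zero_eq_comp, e]
  | succ j ih =>
    intro y hy z hz
    set κ := (continuousMultilinearCurryLeftEquiv ℝ (fun _ : Fin (j + 1) => E4) E).symm
    have hΦd := contDiffOn_jet hU hV hψ j
    have hsucc : ∀ p ∈ U ×ˢ V, iteratedFDeriv ℝ (j + 1) (ψ p.1) p.2 =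
        κ ((fderiv ℝ (fun p : P × E4 => iteratedFDeriv ℝ j (ψ p.1) p.2) p).comp
          (ContinuousLinearMap.inr ℝ P E4)) := fun p hp => by
      have h2 := HasFDerivAt.comp (g := fun p : P × E4 => iteratedFDeriv ℝ j (ψ p.1) p.2)
        (f := fun z => (p.1, z)) p.2
        ((hΦd.differentiableOn (by simp)).differentiableAt ((hU.prod hV).mem_nhds hp)).hasFDerivAt
        (hasFDerivAt_prodMk_right (𝕜 := ℝ) p.1 p.2)
      rw [iteratedFDeriv_succ_eq_comp_left, Function.comp_apply]
      exact congrArg κ h2.fderiv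
    have key := fderiv_succ_comm (Φ' := fun p : P × E4 => iteratedFDeriv ℝ (j + 1) (ψ p.1) p.2)
      (hU.prod hV) hΦd κ.toContinuousLinearEquiv.toContinuousLinearMap hsucc
      (show (y, z) ∈ U ×ˢ V from ⟨hy, hz⟩) v
    rw [iteratedFDeriv_succ_eq_comp_left, Function.comp_apply]
    refine key.trans (congrArg κ ?_)
    exact Filter.EventuallyEq.fderiv_eq
      (Filter.mem_of_superset (hV.mem_nhds hz) fun z' hz' => ih hy hz')

universe u

variable {M : Type u} [TopologicalSpace M] [ChartedSpace E4 M] [IsManifold (𝓡 4) ∞ M]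

/-- continuity of the jets of a family -/
def ContJets (S : Setup M) (N : ℕ) {α : Type*} [TopologicalSpace α] (Φ : α → Form M) (U : Set α) :
    Prop :=
  ∀ i, ∀ j ≤ N, ContinuousOn (fun p : α × E4 => iteratedFDeriv ℝ j (S.read i (Φ p.1).1) p.2)
    (U ×ˢ ball 0 4)

/-- a family smooth in the parameter and in chart coordinates jointly -/
def SmoothFam (S : Setup M) {P : Type} [NormedAddCommGroup P] [NormedSpace ℝ P] (Φ : P → Form M)
    (U : Set P) : Prop :=
  ∀ i, ContDiffOn ℝ ∞ (fun p : P × E4 => S.read i (Φ p.1).1 p.2) (U ×ˢ ball 0 4)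

variable {S : Setup M} {N : ℕ} {C : ℝ} {L : Form M →ₗ[ℝ] ℝ}

theorem continuousOn_jetL {α : Type*} [TopologicalSpace α] {Φ : α → Form M} {U : Set α}
    (h : ContJets S N Φ U) : ContinuousOn (fun y => jetL S N (Φ y)) U :=
  continuousOn_pi.2 fun i => continuousOn_pi.2 fun j =>
    continuousOn_slice (ψ := fun y z => iteratedFDeriv ℝ (j : ℕ) (S.read i (Φ y).1) z)
      B3_subset (h i j (Nat.lt_succ_iff.1 j.2))

theorem continuousOn_apply (hL : ∀ w, |L w| ≤ C * S.cN N w.1) {α : Type*} [TopologicalSpace α]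
    {Φ : α → Form M} {U : Set α} (h : ContJets S N Φ U) : ContinuousOn (fun y => L (Φ y)) U := by
  obtain ⟨Λ, hΛ⟩ := exists_ext S N C L hL
  exact (Λ.continuous.comp_continuousOn (continuousOn_jetL h)).congr fun y _ => (hΛ _).symm

variable {P : Type} [NormedAddCommGroup P] [NormedSpace ℝ P] {Φ : P → Form M} {U : Set P}

omit [IsManifold (𝓡 4) ∞ M] in
theorem SmoothFam.contJets (h : SmoothFam S Φ U) (hU : IsOpen U) : ContJets S N Φ U :=
  fun i j _ => (contDiffOn_jet (ψ := fun y z => S.read i (Φ y).1 z) hU isOpen_ball (h i) j).continuousOn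

theorem contDiffOn_jetL (hU : IsOpen U) (h : SmoothFam S Φ U) :
    ContDiffOn ℝ ∞ (fun y => jetL S N (Φ y)) U :=
  contDiffOn_pi.2 fun i => contDiffOn_pi.2 fun j =>
    contDiffOn_slice (ψ := fun y z => iteratedFDeriv ℝ (j : ℕ) (S.read i (Φ y).1) z) hU isOpen_ball
      B3_subset (contDiffOn_jet (ψ := fun y z => S.read i (Φ y).1 z) hU isOpen_ball (h i) j)

/-- smoothness in the parameter -/
theorem contDiffOn_apply (hL : ∀ w, |L w| ≤ C * S.cN N w.1) (hU : IsOpen U) (h : SmoothFam S Φ U) :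
    ContDiffOn ℝ ∞ (fun y => L (Φ y)) U := by
  obtain ⟨Λ, hΛ⟩ := exists_ext S N C L hL
  exact (Λ.contDiff.comp_contDiffOn (contDiffOn_jetL hU h)).congr fun y _ => (hΛ _).symm

theorem hasFDerivAt_comp (hU : IsOpen U) (h : SmoothFam S Φ U) {y : P} (hy : y ∈ U) (i : Fin S.at_.n)
    (j : Fin (N + 1)) : HasFDerivAt (fun y => jetL S N (Φ y) i j)
      (swapL (slice B3 (dpar fun y z => iteratedFDeriv ℝ (j : ℕ) (S.read i (Φ y).1) z) y)) y := by
  have h1 := hasFDerivAt_slice (K := B3)
    (ψ := fun y z => iteratedFDeriv ℝ (j : ℕ) (S.read i (Φ y).1) z) hU isOpen_ball B3_subset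
    ((contDiffOn_jet (ψ := fun y z => S.read i (Φ y).1 z) hU isOpen_ball (h i) j).of_le one_le_infty) hy
  refine h1.congr_of_eventuallyEq (Eventually.of_forall fun y => ?_)
  show comp S i j (Φ y) = _
  rfl

/-- the parameter derivative is computed inside the functional -/
theorem fderiv_apply_eq (hL : ∀ w, |L w| ≤ C * S.cN N w.1) (hU : IsOpen U) (h : SmoothFam S Φ U)
    {y : P} (hy : y ∈ U) (v : P) (Ψ : Form M)
    (hΨ : ∀ i, ∀ z ∈ ball (0 : E4) 4,
      S.read i Ψ.1 z = fderiv ℝ (fun y => S.read i (Φ y).1 z) y v) :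
    fderiv ℝ (fun y => L (Φ y)) y v = L Ψ := by
  obtain ⟨Λ, hΛ⟩ := exists_ext S N C L hL
  have hcomp := fun i (j : Fin (N + 1)) => hasFDerivAt_comp (N := N) hU h hy i j
  have hfun : (fun y => L (Φ y)) = fun y => Λ (jetL S N (Φ y)) := funext fun y => (hΛ _).symm
  rw [hfun, ← hΛ Ψ]
  refine fderiv_pi_pi (ι := Fin S.at_.n) (κ := Fin (N + 1)) (X := fun j : Fin (N + 1) => JetC j)
    (F := fun y => jetL S N (Φ y)) (w := jetL S N Ψ)
    (D := fun i j => swapL (slice B3 (dpar fun y z => iteratedFDeriv ℝ (j : ℕ) (S.read i (Φ y).1) z) y))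
    Λ hcomp fun i j =>
    ContinuousMap.ext fun z => ?_
  have hz := B3_subset z.2
  have hc : ContinuousOn (dpar (fun y z => iteratedFDeriv ℝ (j : ℕ) (S.read i (Φ y).1) z) y) (ball 0 4) :=
    continuousOn_left (contDiffOn_dpar (m := 0) (n := ∞) (by simp) hU isOpen_ball
      (contDiffOn_jet (ψ := fun y z => S.read i (Φ y).1 z) hU isOpen_ball (h i) j)).continuousOn hy
  show slice B3 (dpar fun y z => iteratedFDeriv ℝ (j : ℕ) (S.read i (Φ y).1) z) y z v = comp S i j Ψ z
  rw [slice_apply (hc.mono B3_subset)]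
  rw [comp_apply, fderiv_jet_comm (ψ := fun y z => S.read i (Φ y).1 z) hU isOpen_ball (h i) v j hy hz]
  refine (Filter.EventuallyEq.iteratedFDeriv ℝ ?_ (j : ℕ)).eq_of_nhds
  exact Filter.mem_of_superset (isOpen_ball.mem_nhds hz) fun z' hz' => by
    simp only [Set.mem_ofPred_eq, hΨ i z' hz']
    exact (congrArg (fun T : P →L[ℝ] C2 => T v)
      (hasFDerivAt_dpar (ψ := fun y z => S.read i (Φ y).1 z) hU isOpen_ball ((h i).of_le one_le_infty) hy hz').fderiv).symm

section integral

variable {α : Type*} [TopologicalSpace α] [T2Space α] [MeasurableSpace α] [OpensMeasurableSpace α]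
  {μ : Measure α} {f : α → ℝ} {K : Set α}

/-- a continuous function on the compact carrier times an integrable one is integrable -/
theorem integrable_smul_compact {X : Type*} [NormedAddCommGroup X] [NormedSpace ℝ X]
    (hf : Integrable f μ) (hK : IsCompact K) (hsupp : ∀ y ∉ K, f y = 0) {g : α → X}
    (hg : ContinuousOn g K) : Integrable (fun y => f y • g y) μ := by
  obtain ⟨B, hB⟩ := hK.exists_bound_of_continuousOn hg
  have heq : (fun y => f y • g y) = fun y => f y • K.indicator g y := funext fun y => by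
    by_cases hy : y ∈ K <;> simp [hy, hsupp]
  rw [heq]
  have hm : AEStronglyMeasurable (K.indicator g) μ :=
    (aestronglyMeasurable_indicator_iff hK.measurableSet).2
      (hg.aestronglyMeasurable_of_isCompact hK hK.measurableSet)
  refine (hf.norm.const_mul (max B 0)).mono' (hf.aestronglyMeasurable.smul hm) (ae_of_all _ fun y => ?_)
  rw [norm_smul, mul_comm]
  refine mul_le_mul_of_nonneg_right ?_ (norm_nonneg _)
  by_cases hy : y ∈ K
  · simpa [hy] using (hB y hy).trans (le_max_left B 0)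
  · simp [hy]

/-- the jets of an averaged form are the averaged jets -/
theorem jet_integral {β : α → Form M} (hf : Integrable f μ) (hK : IsCompact K)
    (hsupp : ∀ y ∉ K, f y = 0) (h : ContJets S N β K) (W : Form M) (i : Fin S.at_.n)
    (hW : ∀ z ∈ ball (0 : E4) 4, S.read i W.1 z = ∫ y, f y • S.read i (β y).1 z ∂μ) :
    ∀ j ≤ N, ∀ z ∈ ball (0 : E4) 4,
      iteratedFDeriv ℝ j (S.read i W.1) z
        = ∫ y, f y • iteratedFDeriv ℝ j (S.read i (β y).1) z ∂μ := by
  intro j
  induction j with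
  | zero =>
    intro _ z hz
    simp only [iteratedFDeriv_zero_eq_comp, Function.comp_apply, hW z hz, ← map_smul]
    exact ((continuousMultilinearCurryFin0 ℝ E4 C2).symm.toContinuousLinearEquiv.integral_comp_comm _).symm
  | succ j ih =>
    intro hj z hz
    set κ := (continuousMultilinearCurryLeftEquiv ℝ (fun _ : Fin (j + 1) => E4) C2).symm
    obtain ⟨r, hr, hsub⟩ := nhds_basis_closedBall.mem_iff.1 (isOpen_ball.mem_nhds hz)
    set g : E4 → α → JetVal j := fun z y => iteratedFDeriv ℝ j (S.read i (β y).1) z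
    have hat : ∀ y, ∀ z' ∈ ball (0 : E4) 4, HasFDerivAt (fun z => g z y) (fderiv ℝ (fun z => g z y) z') z' :=
      fun y z' hz' => ((((smooth_read S i (β y)).contDiffAt (isOpen_ball.mem_nhds hz')).iteratedFDeriv_right
        (m := 1) (i := j) (by exact_mod_cast le_top)).differentiableAt one_ne_zero).hasFDerivAt
    have hgc : ∀ z' ∈ ball (0 : E4) 4, ContinuousOn (g z') K := fun z' hz' =>
      (h i j (Nat.le_of_succ_le hj)).comp (continuousOn_id.prodMk continuousOn_const) fun y hy => ⟨hy, hz'⟩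
    set g' : E4 → α → (E4 →L[ℝ] JetVal j) := fun z y => fderiv ℝ (fun z => g z y) z
    have hg'eq : ∀ z y, g' z y = (continuousMultilinearCurryLeftEquiv ℝ (fun _ : Fin (j + 1) => E4) C2)
        (iteratedFDeriv ℝ (j + 1) (S.read i (β y).1) z) := fun z y => by
      simp [g', g, iteratedFDeriv_succ_eq_comp_left]
    have hg'c : ContinuousOn (fun p : α × E4 => g' p.2 p.1) (K ×ˢ ball 0 4) := by
      simp only [hg'eq]
      exact (LinearIsometryEquiv.continuous _).comp_continuousOn (h i (j + 1) hj)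
    obtain ⟨B, hB⟩ := (hK.prod (isCompact_closedBall z r)).exists_bound_of_continuousOn
      (E := E4 →L[ℝ] JetVal j) (f := fun p : α × E4 => g' p.2 p.1)
      (hg'c.mono (Set.prod_mono subset_rfl hsub))
    have hder := hasFDerivAt_integral_of_dominated_of_fderiv_le (𝕜 := ℝ) (μ := μ)
      (F := fun z y => f y • g z y) (F' := fun z y => f y • g' z y)
      (bound := fun y => |f y| * max B 0) (s := closedBall z r) (x₀ := z)
      (closedBall_mem_nhds z hr)
      (Filter.mem_of_superset (isOpen_ball.mem_nhds hz) fun z' hz' =>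
        (integrable_smul_compact hf hK hsupp (hgc z' hz')).aestronglyMeasurable)
      (integrable_smul_compact hf hK hsupp (hgc z hz))
      (integrable_smul_compact hf hK hsupp (hg'c.comp (continuousOn_id.prodMk continuousOn_const)
        fun y hy => ⟨hy, hz⟩)).aestronglyMeasurable
      (ae_of_all _ fun y z' hz' => by
        rw [norm_smul, Real.norm_eq_abs]
        by_cases hy : y ∈ K
        · exact mul_le_mul_of_nonneg_left ((hB (y, z') ⟨hy, hz'⟩).trans (le_max_left B 0)) (abs_nonneg _)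
        · simp [hsupp y hy])
      (hf.norm.mul_const _)
      (ae_of_all _ fun y z' hz' => (hat y z' (hsub hz')).const_smul (f y))
    rw [iteratedFDeriv_succ_eq_comp_left, Function.comp_apply,
      (hder.congr_of_eventuallyEq (f₁ := iteratedFDeriv ℝ j (S.read i W.1))
        (Filter.mem_of_superset (isOpen_ball.mem_nhds hz) fun z' hz' =>
          ih (Nat.le_of_succ_le hj) z' hz')).fderiv]
    refine (ContinuousLinearEquiv.integral_comp_comm (𝕜 := ℝ) (μ := μ) (E := E4 →L[ℝ] JetVal j) (F := JetVal (j + 1))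
      κ.toContinuousLinearEquiv _).symm.trans (integral_congr_ae (ae_of_all _ fun y => ?_))
    simp [g', g, iteratedFDeriv_succ_eq_comp_left, κ]
    rfl

omit [IsManifold (𝓡 4) ∞ M] in
theorem completeSpace_jetSp (S : Setup M) (N : ℕ) : CompleteSpace (JetSp S N) :=
  have : ∀ j : Fin (N + 1), CompleteSpace (JetC j) := fun _ => inferInstance
  inferInstance

/-- the functional commutes with averaging -/
theorem apply_integral (hL : ∀ w, |L w| ≤ C * S.cN N w.1) {β : α → Form M} (hf : Integrable f μ)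
    (hK : IsCompact K) (hsupp : ∀ y ∉ K, f y = 0) (h : ContJets S N β K) (W : Form M)
    (hW : ∀ i, ∀ z ∈ ball (0 : E4) 4, S.read i W.1 z = ∫ y, f y • S.read i (β y).1 z ∂μ) :
    L W = ∫ y, f y * L (β y) ∂μ := by
  obtain ⟨Λ, hΛ⟩ := exists_ext S N C L hL
  have := completeSpace_jetSp S N
  have hint := integrable_smul_compact (X := JetSp S N) hf hK hsupp (continuousOn_jetL h)
  have heq : jetL S N W = ∫ y, f y • jetL S N (β y) ∂μ := by
    funext i j
    refine ContinuousMap.ext fun z => ?_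
    show comp S i j W z = _
    rw [comp_apply, jet_integral hf hK hsupp h W i (hW i) j (Nat.lt_succ_iff.1 j.2) z (B3_subset z.2)]
    show _ = JetC.evalL j z ((∫ y, f y • jetL S N (β y) ∂μ) i j)
    rw [integral_pi_pi (X := fun j : Fin (N + 1) => JetC j) hint i j (JetC.evalL j z)]
    refine integral_congr_ae (ae_of_all _ fun y => ?_)
    show f y • _ = f y • comp S i j (β y) z
    rw [comp_apply]
  rw [← hΛ W, heq]
  refine (ContinuousLinearMap.integral_comp_comm (𝕜 := ℝ) (E := JetSp S N) Λ hint).symm.trans ?_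
  exact integral_congr_ae (ae_of_all _ fun y => by simp [hΛ])

omit [IsManifold (𝓡 4) ∞ M] in
/-- the pointwise form of the averaged form gives the chart form -/
theorem read_integral_of_pointwise {β : α → Form M} (hf : Integrable f μ) (hK : IsCompact K)
    (hsupp : ∀ y ∉ K, f y = 0) (h : ContJets S N β K) (W : Form M)
    (hW : ∀ x u v, W.1 x u v = ∫ y, f y * (β y).1 x u v ∂μ) (i : Fin S.at_.n) {z : E4}
    (hz : z ∈ ball (0 : E4) 4) : S.read i W.1 z = ∫ y, f y • S.read i (β y).1 z ∂μ := by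
  have hc : ContinuousOn (fun y => S.read i (β y).1 z) K := by
    have h0 := (continuousMultilinearCurryFin0 ℝ E4 C2).continuous.comp_continuousOn
      ((h i 0 (Nat.zero_le N)).comp (continuousOn_id.prodMk continuousOn_const)
        (fun y hy => (⟨hy, hz⟩ : (y, z) ∈ K ×ˢ ball (0 : E4) 4)))
    exact h0.congr fun y _ => by simp [iteratedFDeriv_zero_eq_comp]
  have hint := integrable_smul_compact hf hK hsupp hc
  funext a b
  show readC _ _ z a b = _
  rw [readC, hW]
  exact (((ContinuousLinearMap.proj (R := ℝ) (φ := fun _ : Fin 4 => ℝ) b).comp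
    (ContinuousLinearMap.proj (R := ℝ) (φ := fun _ : Fin 4 => Fin 4 → ℝ) a)).integral_comp_comm hint)

end integral

end

end Vale.Agent.P204.Full.CurCalc
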